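import Vale.Agent.P022.H472.Lit

/-!
P022, block [BDD]: boundedness of the theta series at all cusps, from Poisson summation.
-/

noncomputable section

namespace Vale.Agent.P022.H487

open Vale.Agent.P022

variable {a b c : ℤ} {D : ℕ}

/-- the form is nonnegative -/
theorem Qf_nonneg (ha : 0 < a) (hD : b ^ 2 - 4 * a * c = -(D : ℤ)) (v : ℤ × ℤ) :
    0 ≤ Qf a b c v := by
  have h : 4 * a * Qf a b c v = (2 * a * v.1 + b * v.2) ^ 2 + D * v.2 ^ 2 := by
    have hD' : (D : ℤ) = 4 * a * c - b ^ 2 := by linarith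
    rw [hD', Qf]
    ring
  have h2 : 0 ≤ 4 * a * Qf a b c v := by
    rw [h]
    positivity
  by_contra hn
  push Not at hn
  nlinarith

/-- the norm of a term -/
theorem norm_thT (κ : ℕ) (f : ℤ × ℤ → ℂ) (w : ℂ) (v : ℤ × ℤ) :
    ‖thT a b c D κ f w v‖ =
      ‖f v * ev a b D v ^ κ‖ * Real.exp (-(2 * Real.pi * Qf a b c v * w.im)) := by
  rw [thT, norm_mul, Complex.norm_exp]
  congr 2
  have h : (2 * Real.pi * Complex.I * (Qf a b c v : ℂ) * w : ℂ) =
      ((2 * Real.pi * Qf a b c v : ℝ) : ℂ) * (Complex.I * w) := by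
    push_cast
    ring
  rw [h, Complex.re_ofReal_mul]
  simp

/-- the terms are bounded by those at a lower height -/
theorem norm_thT_le (ha : 0 < a) (hD : b ^ 2 - 4 * a * c = -(D : ℤ)) (κ : ℕ) (f : ℤ × ℤ → ℂ)
    {w w' : ℂ} (h : w'.im ≤ w.im) (v : ℤ × ℤ) :
    ‖thT a b c D κ f w v‖ ≤ ‖thT a b c D κ f w' v‖ := by
  rw [norm_thT, norm_thT]
  refine mul_le_mul_of_nonneg_left (Real.exp_le_exp.2 ?_) (norm_nonneg _)
  have h1 : (0 : ℝ) ≤ Qf a b c v := by exact_mod_cast Qf_nonneg ha hD v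
  have h2 : 2 * Real.pi * Qf a b c v * w'.im ≤ 2 * Real.pi * Qf a b c v * w.im :=
    mul_le_mul_of_nonneg_left h (by positivity)
  linarith

/-- the theta series is bounded on half planes -/
theorem bdd_half (hPO : POStmt) (ha : 0 < a) (hD0 : 0 < D) (hD : b ^ 2 - 4 * a * c = -(D : ℤ))
    (κ M : ℕ) (hM : 0 < M) (f : ℤ × ℤ → ℂ) (hf : Per M f) {y : ℝ} (hy : 0 < y) :
    ∃ K : ℝ, 0 ≤ K ∧ ∀ w : ℂ, y ≤ w.im → ‖th a b c D κ f w‖ ≤ K := by
  have hs := (hPO a b c D ha hD0 hD κ M hM f hf (y * Complex.I) (by simpa using hy)).1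
  have hn := summable_norm_iff.2 hs
  refine ⟨∑' v, ‖thT a b c D κ f (y * Complex.I) v‖, tsum_nonneg fun _ => norm_nonneg _, ?_⟩
  intro w hw
  exact tsum_of_norm_bounded hn.hasSum fun v =>
    norm_thT_le ha hD κ f (by simpa using hw) v

/-- **[HOL]** from the summability in `POStmt` -/
theorem hol (hPO : POStmt) : HOLStmt := by
  intro a b c D ha hD0 hD κ m hm f hf w hw
  have hw' : 0 < w.im := hw
  have hU : IsOpen {z : ℂ | w.im / 2 < z.im} := isOpen_lt continuous_const Complex.continuous_im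
  have hs := (hPO a b c D ha hD0 hD κ m hm f hf ((w.im / 2 : ℝ) * Complex.I)
    (by simpa using half_pos hw')).1
  have h1 : DifferentiableOn ℂ (fun z => ∑' v, thT a b c D κ f z v)
      {z : ℂ | w.im / 2 < z.im} := by
    refine Complex.differentiableOn_tsum_of_summable_norm (summable_norm_iff.2 hs) ?_ hU ?_
    · intro v
      unfold thT
      fun_prop
    · intro v z hz
      refine norm_thT_le ha hD κ f ?_ v
      simpa using le_of_lt hz
  have h2 : DifferentiableAt ℂ (th a b c D κ f) w :=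
    h1.differentiableAt (hU.mem_nhds (by
      show w.im / 2 < w.im
      linarith))
  exact h2.differentiableWithinAt

/-- the finite Fourier transform is periodic -/
theorem per_hatF {M : ℕ} (hM : 0 < M) (f : ℤ × ℤ → ℂ) : Per M (hatF M f) := by
  intro v w
  unfold hatF
  refine Finset.sum_congr rfl fun i _ => Finset.sum_congr rfl fun j _ => ?_
  congr 1
  have hM' : (M : ℂ) ≠ 0 := by exact_mod_cast hM.ne'
  rw [Complex.exp_eq_exp_iff_exists_int]
  refine ⟨w.1 * j.1 - w.2 * i.1, ?_⟩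
  simp only [Prod.fst_add, Prod.snd_add, Prod.smul_fst, Prod.smul_snd, smul_eq_mul]
  push_cast
  field_simp
  ring

/-- the twisted coefficients are periodic -/
theorem per_twist {m : ℕ} {f : ℤ × ℤ → ℂ} (hf : Per m f) (A : ℤ) {C : ℤ} (hC : C ≠ 0) :
    Per (m * C.natAbs) (fun v => f v * Complex.exp (2 * Real.pi * Complex.I *
      ((A * Qf a b c v : ℤ) : ℂ) / C)) := by
  intro v w
  have hC' : (C : ℂ) ≠ 0 := by exact_mod_cast hC
  obtain ⟨s, hs⟩ : ∃ s : ℤ, ((m * C.natAbs : ℕ) : ℤ) = m * (s * C) := by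
    refine ⟨C.sign, ?_⟩
    push_cast
    rw [Int.sign_mul_self_eq_abs, ]
  rw [hs]
  have h1 : f (v + ((m : ℤ) * (s * C)) • w) = f v := by
    have := hf v ((s * C) • w)
    rwa [smul_smul] at this
  simp only [h1]
  congr 1
  rw [Complex.exp_eq_exp_iff_exists_int]
  refine ⟨A * m * s * (2 * a * v.1 * w.1 + a * (m * (s * C)) * w.1 ^ 2 +
    b * (v.1 * w.2 + v.2 * w.1) + b * (m * (s * C)) * w.1 * w.2 +
    2 * c * v.2 * w.2 + c * (m * (s * C)) * w.2 ^ 2), ?_⟩
  simp only [Qf, Prod.fst_add, Prod.snd_add, Prod.smul_fst, Prod.smul_snd, smul_eq_mul]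
  push_cast
  field_simp
  ring

/-- translation of the argument by a rational number -/
theorem th_shift (κ : ℕ) (f : ℤ × ℤ → ℂ) (A : ℤ) {C : ℤ} (t : ℂ) :
    th a b c D κ f ((A : ℂ) / C + t) = th a b c D κ (fun v => f v * Complex.exp
      (2 * Real.pi * Complex.I * ((A * Qf a b c v : ℤ) : ℂ) / C)) t := by
  unfold th
  refine tsum_congr fun v => ?_
  unfold thT
  rw [mul_add, Complex.exp_add]
  have h : (2 * Real.pi * Complex.I * (Qf a b c v : ℂ) * ((A : ℂ) / C) : ℂ) =
      2 * Real.pi * Complex.I * ((A * Qf a b c v : ℤ) : ℂ) / C := by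
    push_cast
    ring
  rw [h]
  ring

/-- **[BDD]** boundedness at all cusps -/
theorem bdd (hPO : POStmt) : BDDStmt := by
  intro a b c D ha hD0 hD κ m hm f hf A B C d hdet
  by_cases hC : C = 0
  · -- a translation
    subst hC
    obtain ⟨K, -, hK⟩ := bdd_half hPO ha hD0 hD κ m hm f hf one_pos
    refine ⟨K, fun w hw => ?_⟩
    have hd : d * A = 1 := by linarith
    have hd2 : d = A := by
      rcases Int.eq_one_or_neg_one_of_mul_eq_one' hd with ⟨h1, h2⟩ | ⟨h1, h2⟩ <;> omega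
    have hA : (A : ℂ) * A = 1 := by
      rw [hd2] at hd
      exact_mod_cast hd
    have hA0 : (A : ℂ) ≠ 0 := fun h => by rw [h] at hA; simp at hA
    have e1 : ((A : ℂ) * w + B) / (((0 : ℤ) : ℂ) * w + d) = w + ((A * B : ℤ) : ℂ) := by
      rw [hd2]
      push_cast
      rw [zero_mul, zero_add, div_eq_iff hA0]
      linear_combination (-(B : ℂ)) * hA
    have e2 : ‖((0 : ℤ) : ℂ) * w + d‖ = 1 := by
      rw [hd2]
      push_cast
      rw [zero_mul, zero_add]
      have h3 : ‖(A : ℂ)‖ * ‖(A : ℂ)‖ = 1 := by rw [← norm_mul, hA, norm_one]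
      nlinarith [norm_nonneg (A : ℂ)]
    rw [e1, e2, one_pow, mul_one]
    refine hK _ ?_
    simpa using hw
  · -- inversion
    set M : ℕ := m * C.natAbs with hMdef
    have hM : 0 < M := Nat.mul_pos hm (Int.natAbs_pos.2 hC)
    set g : ℤ × ℤ → ℂ := fun v => f v * Complex.exp (2 * Real.pi * Complex.I *
      ((A * Qf a b c v : ℤ) : ℂ) / C) with hg
    have hgP : Per M g := per_twist hf A hC
    obtain ⟨K, hK0, hK⟩ := bdd_half hPO ha hD0 hD κ M hM (hatF M g) (per_hatF hM g)
      (y := 1 / (D * m ^ 2)) (by positivity)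
    refine ⟨(M : ℝ) ^ κ * (|(C : ℝ)| / (Real.sqrt D * M ^ 2)) ^ (κ + 1) * K, fun w hw => ?_⟩
    have hCC : (C : ℂ) ≠ 0 := by exact_mod_cast hC
    have hCR : (C : ℝ) ≠ 0 := by exact_mod_cast hC
    have hw0 : 0 < w.im := by linarith
    have hden : (C : ℂ) * w + d ≠ 0 := by
      intro h
      have h1 := congrArg Complex.im h
      simp at h1
      rcases h1 with h1 | h1
      · exact hC h1
      · linarith
    set t : ℂ := -1 / (C * (C * w + d)) with ht
    have e1 : ((A : ℂ) * w + B) / (C * w + d) = (A : ℂ) / C + t := by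
      have hdet' : (A : ℂ) * d - B * C = 1 := by exact_mod_cast hdet
      rw [ht, div_eq_iff hden, add_mul, div_mul_eq_mul_div, div_mul_eq_mul_div,
        mul_div_mul_right _ _ hden]
      field_simp
      linear_combination (-1 : ℂ) * hdet'
    -- the imaginary part of `-1 / t`
    have hinv : -1 / t = C * (C * w + d) := by
      rw [ht]
      field_simp
    have ht0 : t ≠ 0 := by
      rw [ht]
      exact div_ne_zero (by norm_num) (mul_ne_zero hCC hden)
    have him : (-1 / t).im = (C : ℝ) ^ 2 * w.im := by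
      rw [hinv]
      simp
      ring
    have htim : 0 < t.im := by
      have h1 : t = -1 / (-1 / t) := by field_simp
      rw [h1, neg_div, one_div, Complex.neg_im, Complex.inv_im, neg_div, neg_neg, him]
      refine div_pos (by positivity) (Complex.normSq_pos.2 ?_)
      exact div_ne_zero (by norm_num) ht0
    have hpo := (hPO a b c D ha hD0 hD κ M hM g hgP t htim).2
    have e3 : (-1 / (D * M ^ 2 * t) : ℂ).im = w.im / (D * m ^ 2) := by
      have h1 : (-1 / (D * M ^ 2 * t) : ℂ) = ((1 / (D * M ^ 2) : ℝ) : ℂ) * (-1 / t) := by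
        push_cast
        field_simp
      rw [h1, Complex.im_ofReal_mul, him]
      have h2 : (M : ℝ) ^ 2 = m ^ 2 * C ^ 2 := by
        rw [hMdef]
        push_cast
        rw [mul_pow, Nat.cast_natAbs, Int.cast_abs, sq_abs]
      rw [h2]
      have hm' : (m : ℝ) ≠ 0 := by exact_mod_cast hm.ne'
      have hD' : (D : ℝ) ≠ 0 := by exact_mod_cast hD0.ne'
      field_simp
    have e4 : ‖(Complex.I / ((Real.sqrt D : ℂ) * M ^ 2 * t))‖ =
        |(C : ℝ)| / (Real.sqrt D * M ^ 2) * ‖C * w + d‖ := by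
      have h1 : ‖t‖ = 1 / (|(C : ℝ)| * ‖C * w + d‖) := by
        rw [ht, norm_div, norm_neg, norm_one, norm_mul, Complex.norm_intCast]
      rw [norm_div, Complex.norm_I, norm_mul, norm_mul, norm_pow, Complex.norm_real,
        Complex.norm_natCast, h1, Real.norm_of_nonneg (Real.sqrt_nonneg _)]
      have h2 : 0 < Real.sqrt D := Real.sqrt_pos.2 (by exact_mod_cast hD0)
      have h3 : (M : ℝ) ≠ 0 := by exact_mod_cast hM.ne'
      have h4 : ‖C * w + d‖ ≠ 0 := norm_ne_zero_iff.2 hden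
      have h5 : |(C : ℝ)| ≠ 0 := abs_ne_zero.2 hCR
      field_simp
    rw [e1, th_shift, hpo, norm_mul, norm_mul, norm_pow, norm_pow, e4, Complex.norm_natCast,
      mul_pow]
    have h5 := hK (-1 / (D * M ^ 2 * t)) (by
      rw [e3]
      exact div_le_div_of_nonneg_right hw (by positivity))
    calc (M : ℝ) ^ κ * ((|(C : ℝ)| / (Real.sqrt D * M ^ 2)) ^ (κ + 1) *
          ‖C * w + d‖ ^ (κ + 1)) * ‖th a b c D κ (hatF M g) (-1 / (D * M ^ 2 * t))‖
        ≤ (M : ℝ) ^ κ * ((|(C : ℝ)| / (Real.sqrt D * M ^ 2)) ^ (κ + 1) *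
          ‖C * w + d‖ ^ (κ + 1)) * K :=
          mul_le_mul_of_nonneg_left h5 (by positivity)
      _ = _ := by ring

end Vale.Agent.P022.H487
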